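import Vale.Agent.P281.MathlibUsed

namespace Vale.Agent.P281.J

open scoped Manifold ContDiff Topology ENNReal
open Set

universe u

section One

variable (E : Type) [NormedAddCommGroup E] [NormedSpace ℂ E] {X : Type u} [TopologicalSpace X]
  [ChartedSpace E X]

/-- `g` is a holomorphic function near `x`. -/
def HolAt (g : X → ℂ) (x : X) : Prop := ContMDiffAt 𝓘(ℂ, E) 𝓘(ℂ, ℂ) ω g x

/-- Differential at `x` of the function `g` (the tangent space at `x` is `E`). -/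
noncomputable def dif (g : X → ℂ) (x : X) : E →L[ℂ] ℂ := mfderiv 𝓘(ℂ, E) 𝓘(ℂ, ℂ) g x

/-- `g` is a reduced local equation of the closed set `D` near `x`. -/
def IsLocalEq (D : Set X) (g : X → ℂ) (x : X) : Prop :=
  ∃ V : Set X, IsOpen V ∧ x ∈ V ∧ (∀ z ∈ V, HolAt E g z) ∧ (∀ z ∈ V, z ∈ D ↔ g z = 0) ∧
    D ∩ V ⊆ closure {z | z ∈ D ∧ dif E g z ≠ 0}

/-- Prime divisors: closed hypersurfaces whose smooth locus is connected. -/
def IsPrime (D : Set X) : Prop :=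
  IsClosed D ∧ (∀ x, ∃ g, IsLocalEq E D g x) ∧
    IsConnected {x | x ∈ D ∧ ∃ g, IsLocalEq E D g x ∧ dif E g x ≠ 0}

/-- `∑ Δ(D) D` is a rational SNC boundary. -/
def IsSNC (Δ : Set X → ℝ) : Prop :=
  {D | Δ D ≠ 0}.Finite ∧ (∀ D, Δ D ≠ 0 → IsPrime E D) ∧
    (∀ D, ∃ q : ℚ, Δ D = q ∧ 0 ≤ q ∧ q ≤ 1) ∧
    ∀ (x : X) (g : Set X → X → ℂ), (∀ D, Δ D ≠ 0 → x ∈ D → IsLocalEq E D (g D) x) →
      Function.Surjective fun (ξ : E) (D : {D // Δ D ≠ 0 ∧ x ∈ D}) => dif E (g D) x ξ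

/-- Let `L = ∑ c(i) L_i`, where `L_i` is the effective divisor with local equations `eqn i`, and let
`k = m c` be integral.  Sections of `m (K_X + L)` are recorded by `s : X → ℂ`, the value of the
meromorphic `m`-canonical form on the standard frame of the tangent space `E`: near each `z₀`,
`s * ∏ g_i ^ k(i) = a * (dz_1 ∧ ... ∧ dz_n) ^ m` with `a` holomorphic, `g_i` local equation of
`L_i` and `z` the chart at `z₀`. -/
def IsSection {ι : Type u} (eqn : ι → X → (X → ℂ) → Prop) (m : ℕ) (k : ι → ℕ) (s : X → ℂ) :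
    Prop :=
  ∀ z₀ : X, ∃ (T : Finset ι) (g : ι → X → ℂ) (a : X → ℂ), (∀ i, k i ≠ 0 → i ∈ T) ∧
    (∀ i ∈ T, eqn i z₀ (g i)) ∧ HolAt E a z₀ ∧
    ∀ᶠ z in 𝓝 z₀, ∏ i ∈ T, g i z ^ k i ≠ 0 → s z * ∏ i ∈ T, g i z ^ k i =
      a z * ContinuousLinearMap.det (mfderiv 𝓘(ℂ, E) 𝓘(ℂ, E) (chartAt E z₀) z : E →L[ℂ] E) ^ m

/-- The Kodaira dimension `κ(X, K_X + L)`: the supremum of the `j` such that, for some `m > 0` with
`m L` integral, there are sections `s_0, ..., s_j` of `m (K_X + L)` for which the map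
`(s_1 / s_0, ..., s_j / s_0)` is submersive somewhere (that is, the image of the map given by
`|m (K_X + L)|` has dimension at least `j`). -/
noncomputable def kod {ι : Type u} (eqn : ι → X → (X → ℂ) → Prop) (c : ι → ℝ) : WithBot ℕ∞ :=
  ⨆ (j : ℕ) (_ : ∃ (m : ℕ) (k : ι → ℕ) (s : ℕ → X → ℂ) (z : X), 0 < m ∧
    (∀ i, k i = m * c i) ∧ (∀ b, IsSection E eqn m k (s b)) ∧
    (∀ i, k i ≠ 0 → ∃ g, eqn i z g ∧ g z ≠ 0) ∧ s 0 z ≠ 0 ∧
    Function.Surjective fun (ξ : E) (b : Fin j) => dif E (fun w => s (b + 1) w / s 0 w) z ξ),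
    (j : WithBot ℕ∞)

end One

section Two

variable (E E' : Type) [NormedAddCommGroup E] [NormedSpace ℂ E]
  [NormedAddCommGroup E'] [NormedSpace ℂ E']
variable {X Y : Type u} [TopologicalSpace X] [ChartedSpace E X]
  [TopologicalSpace Y] [ChartedSpace E' Y]

open Classical in
/-- The orbifold base `B(f, Δ)`: coefficient `1 - 1 / m(f, Δ; G)` at the prime divisor `G`, where
`m(f, Δ; G)` is the infimum of `ord_D (f^* G) * m_Δ(D)`, `m_Δ(D) = 1 / (1 - Δ_D)`, over the prime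
divisors `D` with `f(D) = G`, and `ord_D (f^* G)` is the `k` with `f^* g = e ^ k * unit` near some
point of `D`, where `e`, `g` are local equations of `D`, `G`. -/
noncomputable def orbBase (f : X → Y) (Δ : Set X → ℝ) (G : Set Y) : ℝ :=
  if IsPrime E' G then (1 - (⨅ (D : Set X) (_ : IsPrime E D ∧ f '' D = G),
    ((sInf {k : ℕ | ∃ x ∈ D, ∃ e g w, IsLocalEq E D e x ∧ IsLocalEq E' G g (f x) ∧ HolAt E w x ∧
      w x ≠ 0 ∧ ∀ᶠ z in 𝓝 x, g (f z) = e z ^ k * w z} : ℕ) : ℝ≥0∞) *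
    (1 - ENNReal.ofReal (Δ D))⁻¹)⁻¹).toReal else 0

/-- The fibre of `f` over `y` is transversal to (all the strata of) `Δ`. -/
def IsTransversal (f : X → Y) (Δ : Set X → ℝ) (y : Y) : Prop :=
  ∀ (x : X) (g : Set X → X → ℂ), f x = y →
    (∀ D, Δ D ≠ 0 → x ∈ D → IsLocalEq E D (g D) x) →
    ∀ c : Set X → ℂ, ∃ ξ : E, mfderiv 𝓘(ℂ, E) 𝓘(ℂ, E') f x ξ = 0 ∧
      ∀ D, Δ D ≠ 0 → x ∈ D → dif E (g D) x ξ = c D

variable {W : Type} [NormedAddCommGroup W] [NormedSpace ℂ W]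

/-- `v` is, near `x`, a holomorphic lift of the points of `X` to homogeneous coordinates. -/
def IsLift (f : X → Y) (π : Y → W → X) (v : X → W) (x : X) : Prop :=
  ContMDiffAt 𝓘(ℂ, E) 𝓘(ℂ, W) ω v x ∧ ∀ᶠ z in 𝓝 x, v z ≠ 0 ∧ π (f z) (v z) = z

/-- `f : X → Y` is a `ℙ(W)`-bundle: it is trivial over the sets `U a` of an open cover of `Y`, with
homogeneous coordinates `π a` (`π a y v` is the point over `y` with homogeneous coordinates
`v ≠ 0`) and projective linear transition maps `g`. -/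
def IsBundle (f : X → Y) {ι : Type u} (U : ι → Set Y) (π : ι → Y → W → X) : Prop :=
  (∀ y, ∃ a, y ∈ U a) ∧
  (∀ a, IsOpen (U a) ∧ (∀ y ∈ U a, ∀ v ≠ 0, f (π a y v) = y ∧
      ContMDiffAt (𝓘(ℂ, E').prod 𝓘(ℂ, W)) 𝓘(ℂ, E) ω (fun p : Y × W => π a p.1 p.2) (y, v) ∧
      ∀ w ≠ 0, π a y v = π a y w ↔ ∃ c : ℂ, w = c • v) ∧
    ∀ x, f x ∈ U a → ∃ v, IsLift E f (π a) v x) ∧
  ∀ a b, ∀ y ∈ U a ∩ U b, ∃ g : Y → W ≃ₗ[ℂ] W,
    (∀ v, ContMDiffAt 𝓘(ℂ, E') 𝓘(ℂ, W) ω (fun y' => g y' v) y) ∧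
    ∀ᶠ y' in 𝓝 y, ∀ v ≠ 0, π a y' v = π b y' (g y' v)

end Two

end Vale.Agent.P281.J
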