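import Mathlib.Algebra.Module.StablyFree.Basic
import Mathlib.Algebra.MvPolynomial.Comap
import Mathlib.Algebra.MvPolynomial.Funext
import Mathlib.Algebra.Ring.IsFormallyReal
import Mathlib.Analysis.Analytic.IteratedFDeriv
import Mathlib.Analysis.Complex.Polynomial.Basic
import Mathlib.Analysis.Complex.RemovableSingularity
import Mathlib.Analysis.InnerProductSpace.NormDet
import Mathlib.Analysis.Normed.Module.Connected
import Mathlib.Combinatorics.Hall.Basic
import Mathlib.Data.Int.Star
import Mathlib.Geometry.Manifold.Algebra.Monoid
import Mathlib.Geometry.Manifold.ContMDiff.Atlas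
import Mathlib.Geometry.Manifold.MFDeriv.SpecificFunctions
import Mathlib.Geometry.Manifold.Sheaf.Basic
import Mathlib.NumberTheory.Dioph
import Mathlib.Order.CompletePartialOrder
import Mathlib.RingTheory.Etale.Weakly
import Mathlib.RingTheory.Finiteness.ModuleFinitePresentation
import Mathlib.RingTheory.Flat.TorsionFree
import Mathlib.RingTheory.LocalProperties.Reduced
import Mathlib.RingTheory.MvPolynomial.IrreducibleQuadratic
import Mathlib.RingTheory.Nullstellensatz
import Mathlib.RingTheory.PicardGroup
import Mathlib.RingTheory.RegularLocalRing.Defs
import Mathlib.RingTheory.SimpleRing.Principal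
import Mathlib.RingTheory.TotallySplit
import Mathlib.RingTheory.Valuation.LocalSubring
import Mathlib.Tactic

/-! The part of Mathlib that the development of this folder uses. -/
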